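import Crest.Agent.N337.Defs
import Crest.Agent.N337.Free.Tor

-- ▼ part N337/Geo/Fill
section

/-!
# Row 337, Geo (helper6), part 1: filling one cube; a Poincaré bound along chains
-/

set_option autoImplicit false

namespace Crest.Agent.N337.Geo

open Finset

variable {X : Type} [Fintype X] [DecidableEq X]

/-- weighted energy of the edges outside `U` -/
noncomputable def En (J : X → X → ℝ) (U : Finset X) (w φ : X → ℝ) : ℝ :=
  ∑ x, ∑ y, if x ∉ U ∧ y ∉ U then J x y * (φ x - φ y) ^ 2 / max (w x) (w y) else 0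

/-- weighted mass outside `U` -/
noncomputable def Ms (U : Finset X) (w φ : X → ℝ) : ℝ := ∑ x, if x ∉ U then φ x ^ 2 / w x else 0

/-- functions extend from `Rᶜ` to `Uᶜ` -/
def St (J : X → X → ℝ) (R U Good : Finset X) (w : X → ℝ) : Prop :=
  (∀ x, 1 ≤ w x) ∧ ∀ ψ : X → ℝ, (∀ x, 0 ≤ ψ x) → ∃ φ : X → ℝ, (∀ x, 0 ≤ φ x) ∧
    (∀ x ∈ Good, φ x = ψ x) ∧ En J U w φ ≤ En J R 1 ψ ∧ Ms U w φ ≤ Ms R 1 ψ

theorem St.init (J : X → X → ℝ) (R Good : Finset X) : St J R R Good 1 :=
  ⟨fun _ => le_rfl, fun ψ h => ⟨ψ, h, fun _ _ => rfl, le_rfl, le_rfl⟩⟩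

theorem sum_ite2 (A B : Finset X) (f : X → X → ℝ) :
    ∑ x, ∑ y, (if x ∈ A ∧ y ∈ B then f x y else 0) = ∑ x ∈ A, ∑ y ∈ B, f x y := by
  simp [ite_and, Finset.sum_ite_mem]

theorem St.fill {J : X → X → ℝ} (hs : ∀ x y, J x y = J y x) (h0 : ∀ x y, 0 ≤ J x y)
    {R U Good Q S : Finset X} {w : X → ℝ} (h : St J R U Good w) {r : X} {W W' C : ℝ}
    (hQ : ∀ x ∈ S, x ∉ Q) (hU : ∀ x ∈ S, x ∉ U) (hr : r ∈ S)
    (hJ : ∀ x ∈ Q, ∀ y ∉ Q, J x y ≠ 0 → y ∈ S) (hw : ∀ x ∈ S, w x ≤ W)
    (hP : ∀ φ : X → ℝ, 2 * ∑ x ∈ Q, ∑ y ∈ S, J x y * (φ r - φ y) ^ 2 ≤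
      C * ∑ x ∈ S, ∑ y ∈ S, J x y * (φ x - φ y) ^ 2)
    (hC : (Q.card : ℝ) ≤ C) (hW : W * (1 + C) ≤ W') :
    St J R (U \ Q) (Good \ Q) fun x => if x ∈ Q ∪ S then W' else w x := by
  have hw1 := h.1
  have hW1 : 1 ≤ W := (hw1 r).trans (hw r hr)
  have hC0 : 0 ≤ C := (Nat.cast_nonneg _).trans hC
  have hWW : W ≤ W' := by nlinarith
  have hW' : 0 < W' := by linarith
  have key : ∀ A : ℝ, 0 ≤ A → (1 + C) * A / W' ≤ A / W := fun A hA => by
    rw [div_le_div_iff₀ hW' (by linarith)]; nlinarith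
  refine ⟨fun x => by dsimp only; split_ifs; exacts [hW1.trans hWW, hw1 x], fun ψ hψ => ?_⟩
  obtain ⟨φ, p0, p1, p2, p3⟩ := h.2 ψ hψ
  refine ⟨fun x => if x ∈ Q then φ r else φ x, fun x => by dsimp only; split_ifs <;> exact p0 _,
    fun x hx => by rw [mem_sdiff] at hx; simp [hx.2, p1 x hx.1], le_trans ?_ p2, le_trans ?_ p3⟩
  · have nn : ∀ x y a b, 0 ≤ J x y * (φ a - φ b) ^ 2 := fun x y _ _ =>
      mul_nonneg (h0 x y) (sq_nonneg _)
    have mp : ∀ x y, 0 < max (w x) (w y) := fun x y => lt_max_of_lt_left (by linarith [hw1 x])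
    have pt : ∀ x y, (if x ∉ U \ Q ∧ y ∉ U \ Q then J x y * ((if x ∈ Q then φ r else φ x) -
        (if y ∈ Q then φ r else φ y)) ^ 2 / max (if x ∈ Q ∪ S then W' else w x)
          (if y ∈ Q ∪ S then W' else w y) else 0) +
        (if x ∈ S ∧ y ∈ S then J x y * (φ x - φ y) ^ 2 / W else 0) ≤
        (if x ∉ U ∧ y ∉ U then J x y * (φ x - φ y) ^ 2 / max (w x) (w y) else 0) +
        ((if x ∈ S ∧ y ∈ S then J x y * (φ x - φ y) ^ 2 / W' else 0) +
        ((if x ∈ Q ∧ y ∈ S then J x y * (φ r - φ y) ^ 2 / W' else 0) +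
        (if x ∈ S ∧ y ∈ Q then J y x * (φ r - φ x) ^ 2 / W' else 0))) := by
      intro x y
      have o0 : 0 ≤ if x ∉ U ∧ y ∉ U then J x y * (φ x - φ y) ^ 2 / max (w x) (w y) else 0 := by
        split_ifs; exacts [div_nonneg (nn _ _ _ _) (mp x y).le, le_rfl]
      by_cases hx : x ∈ Q <;> by_cases hy : y ∈ Q
      · simpa [hx, hy, mt (hQ x) (not_not.2 hx), mt (hQ y) (not_not.2 hy)] using o0
      · by_cases hy' : y ∈ S
        · simpa [hx, hy, hy', mt (hQ x) (not_not.2 hx), hU y hy'] using o0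
        · simp [hy', by_contra fun h => hy' (hJ x hx y hy h), hy]
      · by_cases hx' : x ∈ S
        · simpa [hx, hy, hx', mt (hQ y) (not_not.2 hy), hU x hx', hs x y, sub_sq_comm (φ x)]
            using o0
        · simp [hx', hs x y, by_contra fun h => hx' (hJ y hy x hx h), hx]
      · by_cases hxy : x ∈ S ∧ y ∈ S
        · simp only [hx, hy, hxy, hU x hxy.1, hU y hxy.2, mem_sdiff, mem_union, not_false_eq_true,
            and_true, and_self, if_true, if_false, or_true, max_self, and_false, add_zero]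
          rw [add_comm]
          gcongr
          exacts [nn _ _ _ _, mp x y, max_le (hw x hxy.1) (hw y hxy.2)]
        · simp only [hx, hy, hxy, mem_sdiff, mem_union, not_false_eq_true, and_true, if_false,
            false_and, and_false, add_zero, false_or]
          have : ∀ z, w z ≤ if z ∈ S then W' else w z := fun z => by
            split_ifs with h; exacts [(hw z h).trans hWW, le_rfl]
          by_cases hu : x ∉ U ∧ y ∉ U
          · rw [if_pos hu, if_pos hu]
            exact div_le_div_of_nonneg_left (nn _ _ _ _) (mp x y) (max_le_max (this x) (this y))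
          · rw [if_neg hu, if_neg hu]
    have := sum_le_sum fun x (_ : x ∈ univ) => sum_le_sum fun y (_ : y ∈ univ) => pt x y
    simp only [sum_add_distrib, sum_ite2, ← sum_div] at this
    rw [sum_comm (s := S) (t := Q)] at this
    have h1 := key _ (sum_nonneg fun x (_ : x ∈ S) => sum_nonneg fun y (_ : y ∈ S) => nn x y x y)
    have h2 := div_le_div_of_nonneg_right (hP φ) hW'.le
    rw [add_mul, add_div, one_mul] at h1
    rw [two_mul, add_div] at h2
    unfold En
    linarith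
  · have pt : ∀ x, (if x ∉ U \ Q then (if x ∈ Q then φ r else φ x) ^ 2 /
        (if x ∈ Q ∪ S then W' else w x) else 0) + (if x = r then φ r ^ 2 / W else 0) ≤
        (if x ∉ U then φ x ^ 2 / w x else 0) + ((if x = r then φ r ^ 2 / W' else 0) +
          if x ∈ Q then φ r ^ 2 / W' else 0) := by
      intro x
      have hx0 : 0 < w x := by linarith [hw1 x]
      by_cases hx : x ∈ Q
      · have : x ≠ r := fun e => hQ r hr (e ▸ hx)
        simp only [hx, this, mem_sdiff, mem_union, true_or, if_true, if_false, not_true, and_false,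
          not_false_eq_true, add_zero, zero_add, le_add_iff_nonneg_left]
        positivity
      · by_cases e : x = r
        · subst e
          simp only [hx, hr, hU x hr, mem_sdiff, mem_union, or_true, if_true, if_false, false_and,
            not_false_eq_true, add_zero]
          rw [add_comm]
          gcongr
          exact hw x hr
        · simp only [hx, e, mem_sdiff, mem_union, false_or, if_false, not_false_eq_true, and_true,
            add_zero]
          split_ifs with h1 h2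
          · exact le_rfl
          · gcongr; exact (hw x h2).trans hWW
          · exact le_rfl
    have := sum_le_sum fun x (_ : x ∈ univ) => pt x
    simp only [sum_add_distrib, sum_ite_eq', mem_univ, if_true, sum_ite_mem, univ_inter, sum_const,
      nsmul_eq_mul] at this
    have h1 := key _ (sq_nonneg (φ r))
    have h2 := mul_le_mul_of_nonneg_right hC (div_nonneg (sq_nonneg (φ r)) hW'.le)
    rw [add_mul, add_div, one_mul, mul_div_assoc] at h1
    unfold Ms
    linarith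

omit [Fintype X] in
/-- the oscillation along a chain inside `S` -/
theorem chain_le {S : Finset X} {r : X → X → Prop} {φ : X → ℝ} {ε : ℝ} (hε : 0 ≤ ε)
    (h : ∀ x ∈ S, ∀ y ∈ S, r x y → |φ x - φ y| ≤ ε) {p q : X} (hq : q ∈ S)
    (hc : Relation.ReflTransGen (fun x y => x ∈ S ∧ y ∈ S ∧ r x y) p q) :
    |φ p - φ q| ≤ S.card * ε := by
  let G := SimpleGraph.fromRel fun x y => x ∈ S ∧ y ∈ S ∧ r x y
  have h1 : G.Reachable p q := by
    clear hq
    induction hc with
    | refl => rfl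
    | @tail b c _ h ih =>
      by_cases e : b = c
      · exact e ▸ ih
      · exact ih.trans (SimpleGraph.Adj.reachable ⟨e, .inl h⟩)
  have h2 : ∀ {p q} (c : G.Walk p q), q ∈ S →
      |φ p - φ q| ≤ c.length * ε ∧ ∀ v ∈ c.support, v ∈ S := by
    intro p q c hq
    induction c with
    | nil => simpa using hq
    | @cons a b _ hab c ih =>
      obtain ⟨h3, h4⟩ := ih hq
      have h5 : a ∈ S ∧ |φ a - φ b| ≤ ε := hab.2.elim (fun e => ⟨e.1, h a e.1 b e.2.1 e.2.2⟩)
        fun e => ⟨e.2.1, abs_sub_comm (φ b) _ ▸ h b e.1 a e.2.1 e.2.2⟩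
      refine ⟨(abs_sub_le _ (φ b) _).trans ?_, by simpa using ⟨h5.1, h4⟩⟩
      rw [SimpleGraph.Walk.length_cons]
      push_cast
      linarith [h5.2]
  obtain ⟨c, hc⟩ := h1.exists_isPath
  refine (h2 c hq).1.trans (mul_le_mul_of_nonneg_right (Nat.cast_le.2 ?_) hε)
  have := card_le_card (show c.support.toFinset ⊆ S from fun v hv =>
    (h2 c hq).2 v (by simpa using hv))
  rw [List.toFinset_card_of_nodup hc.support_nodup, SimpleGraph.Walk.length_support] at this
  omega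

end Crest.Agent.N337.Geo
end

-- ▼ part N337/Geo/Shell

/-!
# Row 337, Geo (helper6), part 2: shells of cubes are connected; the shell inequality
-/

set_option autoImplicit false

namespace Crest.Agent.N337.Geo

open Finset Relation Free

variable {d : ℕ} {J : (Fin d → ℤ) → ℝ}

/-- chains of the coupling inside `A` -/
def Con (J : (Fin d → ℤ) → ℝ) (A : Set (Fin d → ℤ)) : (Fin d → ℤ) → (Fin d → ℤ) → Prop :=
  ReflTransGen fun x y => x ∈ A ∧ y ∈ A ∧ J (y - x) ≠ 0

/-- cube -/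
def Cb (d t : ℕ) : Set (Fin d → ℤ) := {y | ∀ i, (y i).natAbs ≤ t}

/-- shell -/
def Sh (d a b : ℕ) : Set (Fin d → ℤ) := {y | y ∈ Cb d b ∧ ∃ i, a < (y i).natAbs}

theorem exists_cb (y : Fin d → ℤ) : ∃ t, y ∈ Cb d t :=
  ⟨univ.sup fun i => (y i).natAbs, fun i => le_sup (f := fun i => (y i).natAbs) (mem_univ i)⟩

theorem Cb.mono {s t : ℕ} (h : s ≤ t) : Cb d s ⊆ Cb d t := fun _ hy i => (hy i).trans h

theorem Con.mono {A B : Set (Fin d → ℤ)} (h : A ⊆ B) {x y : Fin d → ℤ} (c : Con J A x y) :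
    Con J B x y := by
  induction c with
  | refl => exact .refl
  | tail _ e ih => exact ih.tail ⟨h e.1, h e.2.1, e.2.2⟩

theorem exists_word (hJ : Coup J) (z : Fin d → ℤ) : ∃ t, Con J (Cb d t) 0 z := by
  have key : ∀ x y : Fin d → ℤ, J x ≠ 0 → (∃ t, Con J (Cb d t) 0 y) →
      ∃ t, Con J (Cb d t) 0 (x + y) := by
    rintro x y hx ⟨t, h⟩
    obtain ⟨a, ha⟩ := exists_cb y
    obtain ⟨b, hb⟩ := exists_cb (x + y)
    exact ⟨t + a + b, (h.mono (Cb.mono (by omega))).tail
      ⟨Cb.mono (by omega) ha, Cb.mono (by omega) hb, by simpa using hx⟩⟩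
  have hz : z ∈ AddSubgroup.closure (Function.support J) := hJ.gen ▸ AddSubgroup.mem_top z
  induction hz using AddSubgroup.closure_induction_left with
  | zero => exact ⟨0, .refl⟩
  | add_left x hx y _ h => exact key x y hx h
  | neg_add_cancel x hx y _ h => exact key (-x) y (by rwa [hJ.symm]) h

theorem exists_words (hJ : Coup J) : ∃ t, ∀ i, Con J (Cb d t) 0 (Pi.single i 1) := by
  choose t ht using fun i : Fin d => exists_word hJ (Pi.single i 1)
  exact ⟨univ.sup t, fun i => (ht i).mono (Cb.mono (le_sup (mem_univ i)))⟩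

theorem exists_step (hJ : Coup J) (c : Fin d) : ∃ z, J z ≠ 0 ∧ 0 < z c := by
  obtain ⟨t, h⟩ := exists_word hJ (Pi.single c 1)
  by_contra hc
  push Not at hc
  have : ∀ y, Con J (Cb d t) 0 y → y c ≤ 0 := fun y h => by
    induction h with
    | refl => exact le_rfl
    | tail _ h ih => have := hc _ h.2.2; simp only [Pi.sub_apply] at this; omega
  simpa using this _ h

theorem core (hd : 2 ≤ d) {t a m : ℕ} (ht : ∀ i, Con J (Cb d t) 0 (Pi.single i 1))
    (n : ℕ) : ∀ y ∈ Sh d (a + t) m, ∑ i, (m - y i).toNat ≤ n →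
      Con J (Sh d a (m + t)) y fun _ => m := by
  induction n with
  | zero =>
    intro y hy h
    have : y = fun _ => (m : ℤ) := funext fun i => by
      have := (single_le_sum (f := fun i => (m - y i).toNat) (fun _ _ => Nat.zero_le _)
        (mem_univ i)).trans h
      have := hy.1 i
      omega
    exact this ▸ .refl
  | succ n ih =>
    rintro y ⟨hy, c, hc⟩ h
    have step : ∀ i c, i ≠ c → y i < m → a + t < (y c).natAbs →
        Con J (Sh d a (m + t)) y fun _ => m := fun i c hic hi hc => by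
      refine ReflTransGen.trans (b := y + Pi.single i 1) ?_ (ih _ ⟨fun j => ?_, c, ?_⟩ ?_)
      · have e : ∀ v ∈ Cb d t, y + v ∈ Sh d a (m + t) := fun v hv =>
          ⟨fun j => by have := hy j; have := hv j; simp only [Pi.add_apply]; omega, c,
            by have := hv c; simp only [Pi.add_apply]; omega⟩
        simpa [Function.onFun, Con] using (ht i).lift (p := fun x y => x ∈ Sh d a (m + t) ∧ y ∈ Sh d a (m + t) ∧
          J (y - x) ≠ 0) (y + ·) fun u v h => ⟨e u h.1, e v h.2.1, by simpa using h.2.2⟩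
      · have := hy j
        rcases eq_or_ne j i with rfl | hj
        · simp only [Pi.add_apply, Pi.single_eq_same]; omega
        · simpa [hj] using this
      · simpa [hic.symm] using hc
      · refine Nat.le_of_lt_succ (lt_of_lt_of_le (sum_lt_sum (fun j _ => ?_) ⟨i, mem_univ i, ?_⟩) h)
        · rcases eq_or_ne j i with rfl | hj
          · simp only [Pi.add_apply, Pi.single_eq_same]; omega
          · simp [hj]
        · simp only [Pi.add_apply, Pi.single_eq_same]; omega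
    by_cases h1 : ∃ i, i ≠ c ∧ y i < m
    · obtain ⟨i, h1, h2⟩ := h1
      exact step i c h1 h2 hc
    push Not at h1
    have : Nontrivial (Fin d) := Fin.nontrivial_iff_two_le.2 hd
    obtain ⟨c', hc'⟩ := exists_ne c
    have h2 := hy c
    by_cases h3 : y c < m
    · exact step c c' hc'.symm h3 (by have := h1 c' hc'; omega)
    · have : y = fun _ => (m : ℤ) := funext fun i => by
        have := hy i
        rcases eq_or_ne i c with rfl | hi
        · omega
        · have := h1 i hi; omega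
      exact this ▸ .refl

theorem out (hJ : Coup J) {ρ a b : ℕ} (hρ : ∀ z, J z ≠ 0 → z ∈ Cb d ρ) {y : Fin d → ℤ}
    (hy : y ∈ Sh d a (a + ρ)) (k : ℕ) (hb : a + ρ * (k + 1) ≤ b) :
    ∃ y' ∈ Sh d (a + k) (a + ρ * (k + 1)), Con J (Sh d a b) y y' := by
  induction k with
  | zero => exact ⟨y, by simpa using hy, .refl⟩
  | succ k ih =>
    rw [mul_add_one ρ (k + 1)] at hb ⊢
    obtain ⟨y', ⟨h1, c, h2⟩, h3⟩ := ih (by omega)
    obtain ⟨z, hz, h4⟩ : ∃ z, J z ≠ 0 ∧ (y' c).natAbs < (y' c + z c).natAbs := by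
      obtain ⟨z, hz, h4⟩ := exists_step hJ c
      rcases le_total 0 (y' c) with h | h
      · exact ⟨z, hz, by omega⟩
      · exact ⟨-z, by rwa [hJ.symm], by simp only [Pi.neg_apply]; omega⟩
    have h5 : y' + z ∈ Cb d (a + (ρ * (k + 1) + ρ)) := fun i => by
      have := h1 i; have := hρ z hz i; simp only [Pi.add_apply]; omega
    exact ⟨y' + z, ⟨h5, c, by simp only [Pi.add_apply]; omega⟩, h3.tail ⟨⟨Cb.mono (by omega) h1, c,
      by omega⟩, ⟨Cb.mono hb h5, c, by simp only [Pi.add_apply]; omega⟩, by simpa using hz⟩⟩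

theorem exists_shell (hd : 2 ≤ d) (hJ : Coup J) : ∃ ρ t : ℕ, 1 ≤ t ∧ ρ ≤ t ∧
    (∀ z, J z ≠ 0 → z ∈ Cb d ρ) ∧ ∀ a, ∃ r ∈ Sh d a (a + t), ∀ y ∈ Sh d a (a + ρ),
      Con J (Sh d a (a + t)) y r := by
  obtain ⟨t, ht⟩ := exists_words hJ
  choose f hf using exists_cb (d := d)
  have hρ : ∀ z, J z ≠ 0 → z ∈ Cb d ((sp hJ).sup f) := fun z hz =>
    Cb.mono (le_sup ((mem_sp hJ).2 hz)) (hf z)
  generalize (sp hJ).sup f = ρ at hρ
  refine ⟨ρ, ρ * (t + 1) + 1 + t, by omega, by nlinarith, hρ, fun a =>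
    ⟨fun _ => (a + (ρ * (t + 1) + 1) : ℕ), ⟨fun _ => by dsimp only; omega, ⟨0, by omega⟩, by dsimp only; omega⟩,
      fun y hy => ?_⟩⟩
  obtain ⟨y', h1, h2⟩ := out hJ hρ hy t (b := a + (ρ * (t + 1) + 1 + t)) (by omega)
  exact h2.trans (add_assoc a _ t ▸ core hd ht _ y' ⟨Cb.mono (by omega) h1.1, h1.2⟩ le_rfl)

variable {L : ℕ} [NeZero L]

/-- balls of the torus -/
def bl (u : Tor d L) (a : ℕ) : Finset (Tor d L) := univ.filter fun y => tdist u y ≤ a

theorem mem_bl {u y : Tor d L} {a : ℕ} : y ∈ bl u a ↔ tdist u y ≤ a := by simp [bl]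

theorem card_bl (u : Tor d L) (a : ℕ) : ((bl u a).card : ℝ) ≤ ((2 * a + 1 : ℕ) : ℝ) ^ d := by
  exact_mod_cast card_ball_le u a

theorem range_le (hJ : Coup J) {ρ : ℕ} (hρ : ∀ z, J z ≠ 0 → z ∈ Cb d ρ) {x y : Tor d L}
    (h : torJ J L x y ≠ 0) : tdist x y ≤ ρ := by
  rw [torJ_eq hJ] at h
  obtain ⟨z, -, hz⟩ := exists_ne_zero_of_sum_ne_zero h
  simp only [ne_eq, ite_eq_right_iff, not_forall] at hz
  obtain ⟨h1, h2⟩ := hz
  refine tdist_le_iff.2 fun i => le_trans (ZMod.natAbs_min_of_le_div_two L _ (z i) ?_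
    (ZMod.natAbs_valMinAbs_le _)) (hρ z h2 i)
  rw [ZMod.coe_valMinAbs]
  exact (congrFun h1 i).symm

theorem shell (hd : 2 ≤ d) (hJ : Coup J) : ∃ (t : ℕ) (κ : ℝ), 1 ≤ t ∧ 1 ≤ κ ∧
    ∀ (L : ℕ) [NeZero L], (∀ x y : Tor d L, torJ J L x y ≠ 0 → tdist x y ≤ t) ∧
    ∀ (u : Tor d L) (a : ℕ), 2 * (a + t) < L → ∃ r ∈ bl u (a + t) \ bl u a, ∀ φ : Tor d L → ℝ,
      2 * ∑ x ∈ bl u a, ∑ y ∈ bl u (a + t) \ bl u a, torJ J L x y * (φ r - φ y) ^ 2 ≤
        κ * (((2 * (a + t) + 1 : ℕ) : ℝ) ^ d) ^ 3 * ∑ x ∈ bl u (a + t) \ bl u a,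
          ∑ y ∈ bl u (a + t) \ bl u a, torJ J L x y * (φ x - φ y) ^ 2 := by
  obtain ⟨ρ, t, h1, h2, hρ, H⟩ := exists_shell hd hJ
  obtain ⟨z, hz, -⟩ := exists_step hJ ⟨0, by omega⟩
  obtain ⟨z0, hz0, hmin⟩ := exists_min_image (sp hJ) J ⟨z, (mem_sp hJ).2 hz⟩
  have hδ : 0 < J z0 := (hJ.nonneg _).lt_of_ne' ((mem_sp hJ).1 hz0)
  have hT : 0 ≤ ∑ z ∈ sp hJ, J z := sum_nonneg fun z _ => hJ.nonneg z
  refine ⟨t, 1 + 2 * (∑ z ∈ sp hJ, J z) / J z0, h1, le_add_of_nonneg_right (by positivity),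
    fun L _ => ⟨fun x y h => (range_le hJ hρ h).trans h2, fun u a hL => ?_⟩⟩
  obtain ⟨r, hr, H⟩ := H a
  set S := bl u (a + t) \ bl u a with hS
  have hm : ∀ y ∈ Sh d a (a + t), u + tcast L y ∈ S := fun y hy => by
    have e : ∀ i, ((u + tcast L y) i - u i).valMinAbs = y i := fun i =>
      (ZMod.valMinAbs_spec _ _).2 ⟨by simp [tcast], by have := hy.1 i; constructor <;> omega⟩
    obtain ⟨h3, i, h4⟩ := hy
    simp only [hS, mem_sdiff, mem_bl, tdist_le_iff, e, not_forall, not_le]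
    exact ⟨h3, i, h4⟩
  refine ⟨_, hm r hr, fun φ => ?_⟩
  set Z := ∑ x ∈ S, ∑ y ∈ S, torJ J L x y * (φ x - φ y) ^ 2 with hZ
  set M : ℝ := ((2 * (a + t) + 1 : ℕ) : ℝ) ^ d with hM
  have nn : ∀ x y, 0 ≤ torJ J L x y * (φ x - φ y) ^ 2 := fun x y =>
    mul_nonneg (torJ_nonneg hJ x y) (sq_nonneg _)
  have hZ0 : 0 ≤ Z := sum_nonneg fun x _ => sum_nonneg fun y _ => nn x y
  have c1 : (S.card : ℝ) ≤ M := (Nat.cast_le.2 (card_le_card sdiff_subset)).trans (card_bl _ _)
  have c2 : ((bl u a).card : ℝ) ≤ M := (card_bl _ _).trans (by rw [hM]; gcongr; omega)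
  have osc : ∀ y ∈ S, tdist u y ≤ a + ρ → (φ (u + tcast L r) - φ y) ^ 2 ≤ M ^ 2 * (Z / J z0) := by
    intro y hy h3
    have e : u + tcast L (fun i => (y i - u i).valMinAbs) = y := funext fun i => by simp [tcast]
    have h4 : (fun i => (y i - u i).valMinAbs) ∈ Sh d a (a + ρ) := ⟨tdist_le_iff.1 h3, by
      simpa [mem_bl, tdist_le_iff] using (mem_sdiff.1 hy).2⟩
    have h5 := chain_le (S := S) (r := fun x y => J z0 ≤ torJ J L x y) (φ := φ)
      (Real.sqrt_nonneg (Z / J z0)) (fun x hx y hy h => Real.abs_le_sqrt (by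
        rw [le_div_iff₀ hδ, mul_comm]
        exact (mul_le_mul_of_nonneg_right h (sq_nonneg _)).trans
          ((single_le_sum (fun y _ => nn x y) hy).trans
            (single_le_sum (fun x _ => sum_nonneg fun y _ => nn x y) hx))))
      (hm r hr) ((H _ h4).lift (fun v => u + tcast L v) fun v v' h => ⟨hm v h.1, hm v' h.2.1, by
        change J z0 ≤ torJ J L (u + tcast L v) (u + tcast L v')
        rw [torJ_eq hJ]
        refine (hmin _ ((mem_sp hJ).2 h.2.2)).trans (le_trans (le_of_eq (if_pos ?_).symm)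
          (single_le_sum (f := fun z => if tcast L z = u + tcast L v' - (u + tcast L v) then J z
            else 0) (fun z _ => by split_ifs; exacts [hJ.nonneg z, le_rfl])
            ((mem_sp hJ).2 h.2.2)))
        funext i; simp [tcast]⟩)
    dsimp only at h5
    rw [e, abs_sub_comm] at h5
    rw [← sq_abs, ← Real.sq_sqrt (div_nonneg hZ0 hδ.le), ← mul_pow]
    gcongr
    exact h5.trans (by gcongr)
  have h3 : ∀ x ∈ bl u a, ∑ y ∈ S, torJ J L x y * (φ (u + tcast L r) - φ y) ^ 2 ≤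
      (∑ z ∈ sp hJ, J z) * (M ^ 2 * (Z / J z0)) := fun x hx => by
    rw [sum_mul, ← sum_torJ_real hJ x fun _ => M ^ 2 * (Z / J z0)]
    refine (sum_le_sum fun y hy => ?_).trans (sum_le_univ_sum_of_nonneg fun y =>
      mul_nonneg (torJ_nonneg hJ x y) (by positivity))
    by_cases h : torJ J L x y = 0
    · simp [h]
    · exact mul_le_mul_of_nonneg_left (osc y hy ((tdist_triangle u x y).trans
        (add_le_add (mem_bl.1 hx) (range_le hJ hρ h)))) (torJ_nonneg hJ x y)
  have h4 := sum_le_card_nsmul _ _ _ h3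
  rw [nsmul_eq_mul] at h4
  have h5 := mul_le_mul_of_nonneg_right c2
    (show 0 ≤ (∑ z ∈ sp hJ, J z) * (M ^ 2 * (Z / J z0)) by positivity)
  have h6 : 0 ≤ M ^ 3 * Z := by positivity
  calc _ ≤ 2 * (M * ((∑ z ∈ sp hJ, J z) * (M ^ 2 * (Z / J z0)))) + M ^ 3 * Z := by linarith
    _ = _ := by ring

end Crest.Agent.N337.Geo
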